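import Vale.Agent.P144Z.E2.Hol

/-! Poincare, Hardy and Sobolev inequalities on the torus in a gauge field. -/

namespace Vale.Agent.P144Z

open Finset Matrix

theorem hardy_flux : ∃ C : ℝ, 1 ≤ C ∧ ∀ (M : ℕ) [NeZero M] (A : Gauge M), IsSign A →
    ∀ f, flux A f = -1 → ∀ (φ : Tor M × Fin 4 → ℝ) (a : Fin 4),
    φ (f, a) ^ 2 ≤ C * gradsq A (ball f 1) φ :=
  ⟨4, by norm_num, fun _ _ _ hA _ hf φ a => E2.hardy hA hf φ a⟩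

theorem poin_flux : ∃ C : ℝ, 1 ≤ C ∧ ∀ (M : ℕ) [NeZero M] (A : Gauge M), IsSign A →
    ∀ (f : Tor M) (r : ℕ), 1 ≤ r → 2 * r + 5 ≤ M → flux A f = -1 →
    (∀ f', f' ≠ f → tdist f' f ≤ r + 1 → flux A f' = 1) → ∀ φ : Tor M × Fin 4 → ℝ,
    l2sq (ball f r) φ ≤ C * r ^ 2 * gradsq A (ball f (r + 1)) φ :=
  ⟨4000, by norm_num, fun _ _ _ hA _ _ h1 hM hf hF φ => E2.flux_le hA h1 hM hf hF φ⟩

theorem poin_ext : ∃ C : ℝ, 1 ≤ C ∧ ∀ (M : ℕ) [NeZero M] (A : Gauge M), IsSign A →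
    ∀ (z z' : Tor M) (r r' : ℕ), 1 ≤ r' → tdist z' z + r' ≤ r → 2 * r + 1 ≤ M →
    ∀ φ : Tor M × Fin 4 → ℝ, l2sq (ball z r) φ ≤
      C * ((r : ℝ) / r') ^ 2 * (l2sq (ball z' r') φ + r ^ 2 * gradsq A (ball z r) φ) :=
  ⟨648, by norm_num, fun _ _ _ hA z z' _ _ h1 hz h φ => E2.ext_le hA z z' h1 hz h φ⟩

theorem poin_log : ∃ C : ℝ, 1 ≤ C ∧ ∀ (M : ℕ) [NeZero M] (A : Gauge M), IsSign A →
    ∀ (z : Tor M) (r ρ : ℕ), r ≤ ρ → 2 * ρ + 1 ≤ M → ∀ φ : Tor M × Fin 4 → ℝ,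
    l2sq (ball z r) φ ≤ C * ((r : ℝ) + 1) ^ 2 * (l2sq (ball z ρ) φ / ((ρ : ℝ) + 1) ^ 2 +
      (1 + Real.log (((ρ : ℝ) + 1) / (r + 1))) ^ 2 * gradsq A (ball z ρ) φ) :=
  ⟨4000, by norm_num, fun _ _ _ hA z _ _ h1 h φ => E2.log_le hA z h1 h φ⟩

theorem poin_supp : ∃ C : ℝ, 1 ≤ C ∧ ∀ (M : ℕ) [NeZero M] (A : Gauge M), IsSign A →
    ∀ (z : Tor M) (ρ : ℕ), 2 * ρ + 3 ≤ M → ∀ φ : Tor M × Fin 4 → ℝ, SuppIn φ z ρ →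
    l2sq univ φ ≤ C * ((ρ : ℝ) + 1) ^ 2 * gradsq A univ φ :=
  ⟨9, by norm_num, fun _ _ _ hA z _ h _ hφ => E2.supp_sq hA z h hφ⟩

theorem poin_anti : ∃ C : ℝ, 1 ≤ C ∧ ∀ (M : ℕ) [NeZero M] (A : Gauge M), IsSign A →
    ∀ i, Anti A i → ∀ φ : Tor M × Fin 4 → ℝ, l2sq univ φ ≤ C * M ^ 2 * gradsq A univ φ :=
  ⟨1, le_rfl, fun _ _ _ hA _ hi φ => E2.anti_le hA hi φ⟩

theorem poin_mean : ∃ C : ℝ, 1 ≤ C ∧ ∀ (M : ℕ) [NeZero M] (φ : Tor M × Fin 4 → ℝ),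
    l2sq univ (fun s => φ s - (∑ x, φ (x, s.2)) / M ^ 2) ≤ C * M ^ 2 * gradsq 1 univ φ :=
  ⟨2, by norm_num, fun _ _ φ => E2.mean_le φ⟩

/-- The supremum is bounded by two mixed derivatives (trivial gauge). -/
theorem sob_sup : ∃ C : ℝ, 1 ≤ C ∧ ∀ (M : ℕ) [NeZero M] (z x : Tor M) (ρ : ℕ), 1 ≤ ρ →
    2 * ρ + 3 ≤ M → tdist x z ≤ ρ → ∀ w : Tor M → ℝ, w x ^ 2 ≤ C * ∑ y ∈ ball z ρ,
      (w y ^ 2 / ρ ^ 2 + (w (y + uv M 0) - w y) ^ 2 + (w (y + uv M 1) - w y) ^ 2 +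
        ρ ^ 2 * (w (y + uv M 0 + uv M 1) - w (y + uv M 0) - w (y + uv M 1) + w y) ^ 2) :=
  ⟨36, by norm_num, fun _ _ z x _ h1 h hx w => E2.sup_sq z x h1 (by omega) hx w⟩

end Vale.Agent.P144Z
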