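import Vale.Agent.P144Z.E2.Sq

/-! Inequalities that use the holonomy, and the inequality for functions of mean zero. -/

namespace Vale.Agent.P144Z.E2

open Finset Matrix

variable {M : ℕ} [NeZero M]

omit [NeZero M] in
theorem gr_le (A : Gauge M) {B : Finset (Tor M)} (φ : Tor M × Fin 4 → ℝ) (c : Fin 4) (i : Fin 2)
    {x : Tor M} (hx : x ∈ B) : gr A φ c i x ≤ gradsq A B φ :=
  (single_le_sum (f := fun c => gr A φ c i x) (fun _ _ => sq_nonneg _) (mem_univ c)).trans
    ((single_le_sum (f := fun i => ∑ c, gr A φ c i x)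
      (fun _ _ => sum_nonneg fun _ _ => sq_nonneg _) (mem_univ i)).trans
    (single_le_sum (f := fun x => ∑ i, ∑ c, gr A φ c i x)
      (fun _ _ => sum_nonneg fun _ _ => sum_nonneg fun _ _ => sq_nonneg _) hx))

theorem hardy {A : Gauge M} (hA : IsSign A) {f : Tor M} (hf : flux A f = -1)
    (φ : Tor M × Fin 4 → ℝ) (a : Fin 4) : φ (f, a) ^ 2 ≤ 4 * gradsq A (ball f 1) φ := by
  have m0 : f ∈ ball f 1 := G.mem_ball.2 (by rw [tdist_self]; omega)
  have d1 := gr_le A φ a 0 m0
  have d2 := gr_le A φ a 1 (G.mem_ball.2 (tdist_uv f 0))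
  have d3 := gr_le A φ a 0 (G.mem_ball.2 (tdist_uv f 1))
  have d4 := gr_le A φ a 1 m0
  simp only [gr, flux, add_right_comm f (uv M 1) (uv M 0)] at d1 d2 d3 d4 hf
  generalize φ (f, a) = p at *
  generalize φ (f + uv M 0, a) = q at *
  generalize φ (f + uv M 1, a) = r at *
  generalize φ (f + uv M 0 + uv M 1, a) = s at *
  have k : ∀ w x y z : ℝ, 2 * p = w + x + y + z → p ^ 2 ≤ w ^ 2 + x ^ 2 + y ^ 2 + z ^ 2 := by
    intro w x y z h
    rw [(by linarith : p = (w + x + y + z) / 2)]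
    nlinarith [sq_nonneg (w - x), sq_nonneg (w - y), sq_nonneg (w - z), sq_nonneg (x - y),
      sq_nonneg (x - z), sq_nonneg (y - z)]
  have s1 := G.sign_sq hA (f, 0)
  have s2 := G.sign_sq hA (f + uv M 1, 0)
  have s4 := G.sign_sq hA (f, 1)
  generalize A (f, 0) = α at *
  generalize A (f + uv M 0, 1) = β at *
  generalize A (f + uv M 1, 0) = γ at *
  generalize A (f, 1) = δ at *
  have e : α * β = -(γ * δ) := by
    linear_combination (γ * δ) * hf - α * β * δ * δ * s2 - α * β * s4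
  have := k (-(α * q - p)) (-(α * (β * s - q))) (-(δ * (γ * s - r))) (-(δ * r - p))
    (by linear_combination s * e)
  have e1 : (α * (β * s - q)) ^ 2 = (β * s - q) ^ 2 := by
    linear_combination (β * s - q) ^ 2 * s1
  have e2 : (δ * (γ * s - r)) ^ 2 = (γ * s - r) ^ 2 := by
    linear_combination (γ * s - r) ^ 2 * s4
  simp only [neg_sq, e1, e2] at this
  linarith

/-- The gauge sign of the point with coordinates `a, b`. -/
noncomputable def tg (A : Gauge M) (f : Tor M) (a b : ℤ) : ℝ :=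
  line A f 0 a * line A (pt f a 0) 1 b

theorem tg_sq {A : Gauge M} (hA : IsSign A) (f : Tor M) (a b : ℤ) : tg A f a b * tg A f a b = 1 := by
  rcases G.sign_mul (G.line_sign hA f 0 a) (G.line_sign hA (pt f a 0) 1 b) with h | h <;>
    simp [tg, h]

theorem tg_one {A : Gauge M} (hA : IsSign A) (f : Tor M) (a b : ℤ) :
    tg A f a (b + 1) = tg A f a b * A (pt f a b, 1) := by
  rw [tg, tg, G.line_succ hA, mul_assoc, G.smul_uv_one, pt, add_assoc, ← G.prj_add]
  simp [pt]

/-- The sign of a horizontal edge in this gauge. -/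
noncomputable def hs (A : Gauge M) (f : Tor M) (a b : ℤ) : ℝ :=
  tg A f (a + 1) b * tg A f a b * A (pt f a b, 0)

theorem hs_zero {A : Gauge M} (hA : IsSign A) (f : Tor M) (a : ℤ) : hs A f a 0 = 1 := by
  have h1 := tg_sq hA f a 0
  have h2 := G.sign_sq hA (pt f a 0, 0)
  simp only [hs, tg, G.line_zero, mul_one, G.line_succ hA, G.smul_uv_zero] at h1 ⊢
  rw [pt] at h2 ⊢
  linear_combination A (f + prj M (a, 0), 0) * A (f + prj M (a, 0), 0) * h1 + h2

theorem hs_succ {A : Gauge M} (hA : IsSign A) (f : Tor M) (a b : ℤ) :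
    hs A f a (b + 1) = hs A f a b * flux A (pt f a b) := by
  have h2 := G.sign_sq hA (pt f a b, 0)
  simp only [hs, tg_one hA, flux, pt_zero, pt_one]
  linear_combination (-(tg A f (a + 1) b * tg A f a b * A (pt f a b + uv M 0, 1) *
    A (pt f a b + uv M 1, 0) * A (pt f a b, 1))) * h2

theorem hs_val {A : Gauge M} (hA : IsSign A) {f : Tor M} {r : ℕ} (hM : 2 * r + 1 ≤ M)
    (hf : flux A f = -1) (hF : ∀ f', f' ≠ f → tdist f' f ≤ r → flux A f' = 1) {a : ℤ}
    (ha : |a| ≤ r) (b : ℤ) (hb : |b| ≤ r) : hs A f a b = if a = 0 ∧ 1 ≤ b then -1 else 1 := by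
  have k : ∀ b : ℤ, |b| ≤ r → flux A (pt f a b) = if a = 0 ∧ b = 0 then -1 else 1 := by
    intro b hb
    have t := tdist_pt f (a := a) (b := b) (by omega) (by omega)
    split_ifs with h
    · rw [h.1, h.2, pt, Prod.mk_zero_zero, G.prj_zero, add_zero, hf]
    · refine hF _ (fun e => ?_) (by rw [abs_le] at ha hb; omega)
      rw [e, tdist_self] at t
      omega
  induction b using Int.induction_on with
  | zero => simp [hs_zero hA]
  | succ n ih =>
    have hn : |(n : ℤ)| ≤ r := by rw [abs_le] at hb ⊢; omega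
    rw [hs_succ hA, ih hn, k n hn]
    split_ifs <;> first | omega | norm_num
  | pred n ih =>
    have h := hs_succ hA f a (-(n : ℤ) - 1)
    rw [sub_add_cancel, ih (by rw [abs_le] at hb ⊢; omega), k _ hb, if_neg (by omega),
      if_neg (by omega), mul_one] at h
    rw [← h, if_neg (by omega)]

theorem flux_le {A : Gauge M} (hA : IsSign A) {f : Tor M} {r : ℕ} (h1 : 1 ≤ r)
    (hM : 2 * r + 5 ≤ M) (hf : flux A f = -1)
    (hF : ∀ f', f' ≠ f → tdist f' f ≤ r + 1 → flux A f' = 1) (φ : Tor M × Fin 4 → ℝ) :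
    l2sq (ball f r) φ ≤ 4000 * r ^ 2 * gradsq A (ball f (r + 1)) φ := by
  have hM' : 2 * (r + 1) + 1 ≤ M := by omega
  have s1 : Icc (-(r : ℤ)) 0 ⊆ Icc (-((r + 1 : ℕ) : ℤ)) (r + 1 : ℕ) :=
    Icc_subset_Icc (by omega) (by omega)
  have s2 : Icc (1 : ℤ) (r + 1) ⊆ Icc (-((r + 1 : ℕ) : ℤ)) (r + 1 : ℕ) :=
    Icc_subset_Icc (by omega) (by omega)
  have c1 : (Icc (-(r : ℤ)) 0).card = r + 1 := by rw [Int.card_Icc]; omega
  have c2 : (Icc (1 : ℤ) (r + 1)).card = r + 1 := by rw [Int.card_Icc]; omega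
  have k1 := rsq_cmp hA f hM' φ Subset.rfl Subset.rfl s1 s2 one_pos
  have k2 : rsq f (Icc (-(r : ℤ)) 0) (Icc 1 (r + 1)) φ ≤
      4 * (2 * ((r + 1 : ℕ) : ℝ) + 1) ^ 2 * gradsq A (ball f (r + 1)) φ := by
    simp only [rsq, gradsq_eq, sum_ball f hM', ← card_I0]
    rw [mul_sum]
    refine sum_le_sum fun c _ => ?_
    have e : ∀ a b, |φ (pt f a b, c)| ^ 2 = (tg A f a b * φ (pt f a b, c)) ^ 2 := fun a b => by
      rw [sq_abs]
      linear_combination (-φ (pt f a b, c) ^ 2) * tg_sq hA f a b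
    have g0 : ∀ a b, (hs A f a b * (tg A f (a + 1) b * φ (pt f (a + 1) b, c)) -
        tg A f a b * φ (pt f a b, c)) ^ 2 = gr A φ c 0 (pt f a b) := fun a b => by
      have t1 := tg_sq hA f a b
      have t2 := tg_sq hA f (a + 1) b
      have : hs A f a b * (tg A f (a + 1) b * φ (pt f (a + 1) b, c)) =
          tg A f a b * (A (pt f a b, 0) * φ (pt f a b + uv M 0, c)) := by
        rw [hs, pt_zero]
        linear_combination tg A f a b * A (pt f a b, 0) * φ (pt f a b + uv M 0, c) * t2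
      rw [this, gr]
      linear_combination (A (pt f a b, 0) * φ (pt f a b + uv M 0, c) - φ (pt f a b, c)) ^ 2 * t1
    simp only [e]
    refine cut_le (u := fun a b => tg A f a b * φ (pt f a b, c))
      (v := fun a b => (if a ≤ 0 then 1 else -1) * (tg A f a b * φ (pt f a b, c)))
      (fun a b => gr_nonneg A φ c 0 _) (fun a b => gr_nonneg A φ c 1 _) s1 s2 (c1.trans c2.symm)
      (by omega) (fun a ha b => ?_) (fun a ha b => ?_) (fun b hb a h2 h3 => ?_)
      (fun b hb a h2 h3 => ?_) fun a b => le_of_eq ?_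
    · rw [if_pos (mem_Icc.1 ha).2, one_mul]
    · rw [if_neg (by have := (mem_Icc.1 ha).1; omega), neg_one_mul]
    · rw [mem_Icc] at hb
      rw [← g0, hs_val hA hM' hf hF (by rw [abs_le]; omega) b (by rw [abs_le]; omega),
        if_neg (by omega), one_mul]
    · rw [mem_Icc] at hb
      rw [← g0, hs_val hA hM' hf hF (by rw [abs_le]; omega) b (by rw [abs_le]; omega)]
      split_ifs <;> first | omega | exact le_of_eq (by ring)
    · rw [tg_one hA, pt_one, gr]
      linear_combination (A (pt f a b, 1) * φ (pt f a b + uv M 1, c) - φ (pt f a b, c)) ^ 2 *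
        tg_sq hA f a b
  rw [← rsq_ball f hM', card_I0, c1, c2] at k1
  have k3 : l2sq (ball f r) φ ≤ l2sq (ball f (r + 1)) φ :=
    sum_le_sum_of_subset_of_nonneg (fun x hx => G.mem_ball.2 ((G.mem_ball.1 hx).trans (by omega)))
      fun _ _ _ => sum_nonneg fun _ _ => sq_nonneg _
  have a3 := gradsq_nonneg A (ball f (r + 1)) φ
  have hr : (1 : ℝ) ≤ r := by exact_mod_cast h1
  generalize gradsq A (ball f (r + 1)) φ = G at *
  push_cast at k1 k2
  refine k3.trans (le_of_mul_le_mul_left (k1.trans ?_) (by positivity))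
  calc _ ≤ (1 + 1⁻¹) * ((2 * ((r : ℝ) + 1) + 1) * (2 * (r + 1) + 1)) *
        (4 * (2 * (r + 1) + 1) ^ 2 * G) + 4 * (1 + 1) * (2 * (r + 1) + 1) ^ 4 * G := by gcongr
    _ = 16 * (2 * (r + 1) + 1) ^ 2 * (2 * (r + 1) + 1) ^ 2 * G := by ring
    _ ≤ 16 * (3 * (r + 1)) ^ 2 * (5 * r) ^ 2 * G := by gcongr <;> linarith
    _ = (r + 1) * (r + 1) * (3600 * r ^ 2 * G) := by ring
    _ ≤ _ := by gcongr; norm_num

theorem sum_shift (v : Tor M) (F : Tor M → ℝ) : ∑ x, F (x + v) = ∑ x, F x :=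
  Equiv.sum_comp (Equiv.addRight v) F

/-- Transport along a line. -/
theorem line_le {A : Gauge M} (hA : IsSign A) (φ : Tor M × Fin 4 → ℝ) (c : Fin 4) (i : Fin 2)
    {n : ℕ} (hn : n ≤ M) :
    ∑ x, ((∏ m ∈ range n, A (x + m • uv M i, i)) * φ (x + n • uv M i, c) - φ (x, c)) ^ 2 ≤
      M ^ 2 * ∑ x, gr A φ c i x := by
  have k : ∀ x, ((∏ m ∈ range n, A (x + m • uv M i, i)) * φ (x + n • uv M i, c) - φ (x, c)) ^ 2 ≤
      n * ∑ m ∈ range n, gr A φ c i (x + m • uv M i) := fun x => by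
    have e := sum_range_sub (fun n => (∏ m ∈ range n, A (x + m • uv M i, i)) *
      φ (x + n • uv M i, c)) n
    simp only [range_zero, prod_empty, one_mul, zero_smul, add_zero] at e
    rw [← e]
    refine sq_sum_le_card_mul_sum_sq.trans (le_of_eq ?_)
    rw [card_range]
    refine congrArg _ (sum_congr rfl fun m _ => ?_)
    rw [prod_range_succ, succ_nsmul, ← add_assoc, gr]
    rcases G.sign_prod hA (range m) fun m => (x + m • uv M i, i) with h | h <;> rw [h] <;> ring
  refine (sum_le_sum fun x _ => k x).trans ?_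
  rw [← mul_sum, sum_comm]
  simp only [sum_shift _ (gr A φ c i), sum_const, card_range, nsmul_eq_mul, ← mul_assoc, ← pow_two]
  exact mul_le_mul_of_nonneg_right (by gcongr) (sum_nonneg fun _ _ => sq_nonneg _)

theorem anti_le {A : Gauge M} (hA : IsSign A) {i : Fin 2} (hi : Anti A i)
    (φ : Tor M × Fin 4 → ℝ) : l2sq univ φ ≤ 1 * M ^ 2 * gradsq A univ φ := by
  have e : M • uv M i = 0 := by fin_cases i <;> simp [uv]
  rw [l2sq, sum_comm, gradsq_eq, mul_sum]
  refine sum_le_sum fun c _ => ?_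
  have h := line_le hA φ c i le_rfl
  simp only [hi _, e, add_zero] at h
  refine (sum_le_sum fun x _ => ?_).trans (h.trans ?_)
  · nlinarith [sq_nonneg (φ (x, c))]
  · rw [one_mul]
    refine mul_le_mul_of_nonneg_left (sum_le_sum fun x _ => ?_) (sq_nonneg _)
    fin_cases i
    · exact le_add_of_nonneg_right (sq_nonneg _)
    · exact le_add_of_nonneg_left (sq_nonneg _)

theorem mean_le (φ : Tor M × Fin 4 → ℝ) :
    l2sq univ (fun s => φ s - (∑ x, φ (x, s.2)) / M ^ 2) ≤ 2 * M ^ 2 * gradsq 1 univ φ := by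
  have hM : (0 : ℝ) < M := by exact_mod_cast NeZero.pos M
  have hc : ((univ : Finset (Tor M)).card : ℝ) = M ^ 2 := by
    simp [Fintype.card_prod, ZMod.card, pow_two]
  rw [l2sq, sum_comm, gradsq_eq, mul_sum]
  refine sum_le_sum fun c _ => le_of_mul_le_mul_left ?_ (by positivity : (0 : ℝ) < M ^ 2)
  have k : ∀ v : Tor M, ∑ x, (φ (x + v, c) - φ (x, c)) ^ 2 ≤
      2 * M ^ 2 * ∑ x, (gr 1 φ c 0 x + gr 1 φ c 1 x) := fun v => by
    have h0 := line_le (A := 1) (fun _ => Or.inl rfl) φ c 0 (ZMod.val_lt v.1).le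
    have h1 := line_le (A := 1) (fun _ => Or.inl rfl) φ c 1 (ZMod.val_lt v.2).le
    simp only [Pi.one_apply, prod_const_one, one_mul] at h0 h1
    rw [← sum_shift (v.1.val • uv M 0)] at h1
    have e : ∀ x, x + v.1.val • uv M 0 + v.2.val • uv M 1 = x + v := fun x => by
      rw [add_assoc]
      congr 1
      ext <;> simp [uv]
    simp only [e] at h1
    rw [sum_add_distrib]
    have h2 := sum_le_sum fun x (_ : x ∈ univ) => (by
      nlinarith [sq_nonneg (φ (x + v, c) - 2 * φ (x + v.1.val • uv M 0, c) + φ (x, c))] :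
      (φ (x + v, c) - φ (x, c)) ^ 2 ≤ 2 * (φ (x + v.1.val • uv M 0, c) - φ (x, c)) ^ 2 +
        2 * (φ (x + v, c) - φ (x + v.1.val • uv M 0, c)) ^ 2)
    rw [sum_add_distrib, ← mul_sum, ← mul_sum] at h2
    linarith
  have h := sum_le_sum fun v (_ : v ∈ univ) => k v
  rw [sum_const, nsmul_eq_mul, hc, sum_comm] at h
  refine le_trans ?_ h
  rw [mul_sum]
  refine sum_le_sum fun x _ => ?_
  have h3 := sq_sum_le_card_mul_sum_sq (s := univ) (f := fun v => φ (x + v, c) - φ (x, c))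
  have e : ∑ v, φ (x + v, c) = ∑ v, φ (v, c) :=
    Equiv.sum_comp (Equiv.addLeft x) fun v => φ (v, c)
  rw [sum_sub_distrib, sum_const, nsmul_eq_mul, hc, e] at h3
  refine le_of_mul_le_mul_left (le_trans (le_of_eq ?_) h3) (by positivity)
  field_simp
  ring

end Vale.Agent.P144Z.E2
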