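import Mathlib

/-! Poincare inequalities for functions on squares of the plane lattice. -/

namespace Vale.Agent.P144Z.E2

open Finset

theorem tele (f : ℤ → ℝ) {n m : ℤ} (h : n ≤ m) :
    f m - f n = ∑ k ∈ Ico n m, (f (k + 1) - f k) := by
  induction m, h using Int.leInduction with
  | base => simp
  | succ m hm ih =>
    have e : Ico n (m + 1) = insert m (Ico n m) := by
      ext k
      simp only [mem_Ico, mem_insert]
      omega
    rw [e, sum_insert (by simp), ← ih]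
    ring

theorem diff_sq {f g : ℤ → ℝ} {s t : ℤ} (hg : ∀ k, 0 ≤ g k)
    (h : ∀ k, s ≤ k → k < t → (f (k + 1) - f k) ^ 2 ≤ g k) {m n : ℤ} (hm : m ∈ Icc s t)
    (hn : n ∈ Icc s t) : (f m - f n) ^ 2 ≤ (Icc s t).card * ∑ k ∈ Icc s t, g k := by
  wlog hnm : n ≤ m generalizing m n
  · rw [← neg_sub, neg_sq]
    exact this hn hm (not_le.1 hnm).le
  rw [mem_Icc] at hm hn
  have hs : Ico n m ⊆ Icc s t := fun k hk => by
    rw [mem_Ico] at hk
    rw [mem_Icc]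
    omega
  rw [tele f hnm]
  refine sq_sum_le_card_mul_sum_sq.trans (mul_le_mul (by exact_mod_cast card_le_card hs) ?_
    (sum_nonneg fun _ _ => sq_nonneg _) (Nat.cast_nonneg _))
  refine (sum_le_sum fun k hk => ?_).trans (sum_le_sum_of_subset_of_nonneg hs fun k _ _ => hg k)
  rw [mem_Ico] at hk
  exact h k (by omega) (by omega)

theorem pt_le (f : ℤ → ℝ) {s t m : ℤ} (hm : m ∈ Icc s t) :
    (Icc s t).card * f m ^ 2 ≤ 2 * ∑ k ∈ Icc s t, f k ^ 2 +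
      2 * ((Icc s t).card : ℝ) ^ 2 * ∑ k ∈ Icc s t, (f (k + 1) - f k) ^ 2 := by
  have h : ∀ n ∈ Icc s t, f m ^ 2 ≤ 2 * f n ^ 2 +
      2 * ((Icc s t).card * ∑ k ∈ Icc s t, (f (k + 1) - f k) ^ 2) := fun n hn => by
    nlinarith [diff_sq (f := f) (fun k => sq_nonneg _) (fun k _ _ => le_rfl) hm hn,
      sq_nonneg (f m - 2 * f n)]
  have := sum_le_sum h
  simp only [sum_const, nsmul_eq_mul, sum_add_distrib, ← mul_sum] at this
  linarith

theorem sum2_le {I J : Finset ℤ} {F : ℤ → ℤ → ℝ} {p q : ℤ → ℝ} {c : ℝ}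
    (h : ∀ a ∈ I, ∀ b ∈ J, F a b ≤ c + p a + q b) :
    ∑ a ∈ I, ∑ b ∈ J, F a b ≤ I.card * J.card * c + J.card * ∑ a ∈ I, p a +
      I.card * ∑ b ∈ J, q b := by
  refine (sum_le_sum fun a ha => sum_le_sum fun b hb => h a ha b hb).trans (le_of_eq ?_)
  simp only [sum_const, nsmul_eq_mul, sum_add_distrib, ← mul_sum]
  ring

section

variable {u g₀ g₁ : ℤ → ℤ → ℝ} {s t : ℤ} (p₀ : ∀ a b, 0 ≤ g₀ a b) (p₁ : ∀ a b, 0 ≤ g₁ a b)
include p₀ p₁

theorem rows_le {J : Finset ℤ} (hJ : J ⊆ Icc s t) :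
    ∑ b ∈ J, ∑ k ∈ Icc s t, g₀ k b ≤ ∑ a ∈ Icc s t, ∑ b ∈ Icc s t, (g₀ a b + g₁ a b) := by
  rw [sum_comm]
  exact sum_le_sum fun a _ => (sum_le_sum_of_subset_of_nonneg hJ fun b _ _ => p₀ a b).trans
    (sum_le_sum fun b _ => le_add_of_nonneg_right (p₁ a b))

theorem cols_le {I : Finset ℤ} (hI : I ⊆ Icc s t) :
    ∑ a ∈ I, ∑ k ∈ Icc s t, g₁ a k ≤ ∑ a ∈ Icc s t, ∑ b ∈ Icc s t, (g₀ a b + g₁ a b) :=
  (sum_le_sum_of_subset_of_nonneg hI fun a _ _ => sum_nonneg fun b _ => p₁ a b).trans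
    (sum_le_sum fun a _ => sum_le_sum fun b _ => le_add_of_nonneg_left (p₀ a b))

/-- Comparison of the mean squares over two rectangles of a square. -/
theorem cmp (h₀ : ∀ a b, (u (a + 1) b - u a b) ^ 2 ≤ g₀ a b)
    (h₁ : ∀ a b, (u a (b + 1) - u a b) ^ 2 ≤ g₁ a b) {I J I' J' : Finset ℤ} (hI : I ⊆ Icc s t)
    (hJ : J ⊆ Icc s t) (hI' : I' ⊆ Icc s t) (hJ' : J' ⊆ Icc s t) {k : ℝ} (hk : 0 < k) :
    I'.card * J'.card * ∑ a ∈ I, ∑ b ∈ J, u a b ^ 2 ≤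
      (1 + k⁻¹) * (I.card * J.card) * ∑ a ∈ I', ∑ b ∈ J', u a b ^ 2 + 4 * (1 + k) *
        ((Icc s t).card : ℝ) ^ 4 * ∑ a ∈ Icc s t, ∑ b ∈ Icc s t, (g₀ a b + g₁ a b) := by
  have c1 : (I.card : ℝ) ≤ (Icc s t).card := by exact_mod_cast card_le_card hI
  have c2 : (J.card : ℝ) ≤ (Icc s t).card := by exact_mod_cast card_le_card hJ
  have c3 : (I'.card : ℝ) ≤ (Icc s t).card := by exact_mod_cast card_le_card hI'
  have c4 : (J'.card : ℝ) ≤ (Icc s t).card := by exact_mod_cast card_le_card hJ'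
  have r1 := rows_le p₀ p₁ hJ
  have r2 := cols_le p₀ p₁ hI'
  have hG : 0 ≤ ∑ a ∈ Icc s t, ∑ b ∈ Icc s t, (g₀ a b + g₁ a b) :=
    sum_nonneg fun a _ => sum_nonneg fun b _ => add_nonneg (p₀ a b) (p₁ a b)
  have key : ∀ a' ∈ I', ∀ b' ∈ J', ∑ a ∈ I, ∑ b ∈ J, u a b ^ 2 ≤
      (1 + k⁻¹) * (I.card * J.card) * u a' b' ^ 2 +
        (2 * (1 + k) * (Icc s t).card * (I.card * ∑ b ∈ J, ∑ k ∈ Icc s t, g₀ k b) +
        2 * (1 + k) * (Icc s t).card * (I.card * J.card) * ∑ k ∈ Icc s t, g₁ a' k) := by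
    intro a' ha' b' hb'
    refine (sum2_le (c := (1 + k⁻¹) * u a' b' ^ 2 + 2 * (1 + k) * ((Icc s t).card *
      ∑ k ∈ Icc s t, g₁ a' k)) (p := fun _ => 0) (q := fun b => 2 * (1 + k) * ((Icc s t).card *
      ∑ k ∈ Icc s t, g₀ k b)) fun a ha b hb => ?_).trans (le_of_eq ?_)
    · have d0 := diff_sq (f := fun a => u a b) (fun k => p₀ k b) (fun k _ _ => h₀ k b) (hI ha)
        (hI' ha')
      have d1 := diff_sq (f := u a') (p₁ a') (fun k _ _ => h₁ a' k) (hJ hb) (hJ' hb')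
      have d2 : (u a b - u a' b') ^ 2 ≤ 2 * (u a b - u a' b) ^ 2 + 2 * (u a' b - u a' b') ^ 2 := by
        nlinarith [sq_nonneg (u a b - 2 * u a' b + u a' b')]
      have d3 : u a b ^ 2 ≤ (1 + k⁻¹) * u a' b' ^ 2 + (1 + k) * (u a b - u a' b') ^ 2 := by
        have : k⁻¹ * (u a' b' - k * (u a b - u a' b')) ^ 2 = k⁻¹ * u a' b' ^ 2 -
            2 * u a' b' * (u a b - u a' b') + k * (u a b - u a' b') ^ 2 := by
          field_simp
          ring
        nlinarith [mul_nonneg (inv_pos.2 hk).le (sq_nonneg (u a' b' - k * (u a b - u a' b')))]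
      nlinarith [mul_le_mul_of_nonneg_left (d2.trans (add_le_add
        (mul_le_mul_of_nonneg_left d0 two_pos.le) (mul_le_mul_of_nonneg_left d1 two_pos.le)))
        (by linarith : 0 ≤ 1 + k)]
    · simp only [sum_const_zero, ← mul_sum]
      ring
  have h := sum_le_sum fun a ha => sum_le_sum fun b hb => key a ha b hb
  simp only [sum_const, nsmul_eq_mul, sum_add_distrib, ← mul_sum] at h
  have n1 := sum_nonneg fun b (_ : b ∈ J) => sum_nonneg fun k (_ : k ∈ Icc s t) => p₀ k b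
  have n2 := sum_nonneg fun a (_ : a ∈ I') => sum_nonneg fun k (_ : k ∈ Icc s t) => p₁ a k
  generalize ∑ a ∈ Icc s t, ∑ b ∈ Icc s t, (g₀ a b + g₁ a b) = G at *
  generalize ∑ b ∈ J, ∑ k ∈ Icc s t, g₀ k b = G₀ at *
  generalize ∑ a ∈ I', ∑ k ∈ Icc s t, g₁ a k = G₁ at *
  generalize ((Icc s t).card : ℝ) = N at *
  have hN : 0 ≤ N := (Nat.cast_nonneg _).trans c1
  have k1 : (I'.card : ℝ) * (J'.card * (2 * (1 + k) * N * (I.card * G₀))) ≤
      N * (N * (2 * (1 + k) * N * (N * G))) := by gcongr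
  have k2 : (J'.card : ℝ) * (2 * (1 + k) * N * (I.card * J.card) * G₁) ≤
      N * (2 * (1 + k) * N * (N * N) * G) := by gcongr
  linarith

/-- A function that vanishes on the last column. -/
theorem supp_le (h₀ : ∀ a b, (u (a + 1) b - u a b) ^ 2 ≤ g₀ a b) (hst : s ≤ t)
    (h : ∀ b ∈ Icc s t, u t b = 0) : ∑ a ∈ Icc s t, ∑ b ∈ Icc s t, u a b ^ 2 ≤
      ((Icc s t).card : ℝ) ^ 2 * ∑ a ∈ Icc s t, ∑ b ∈ Icc s t, (g₀ a b + g₁ a b) := by
  refine (sum2_le (c := 0) (p := fun _ => 0) (q := fun b => (Icc s t).card *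
    ∑ k ∈ Icc s t, g₀ k b) fun a ha b hb => ?_).trans ?_
  · have d0 := diff_sq (f := fun a => u a b) (fun k => p₀ k b) (fun k _ _ => h₀ k b) ha
      (mem_Icc.2 ⟨hst, le_rfl⟩)
    simpa only [h b hb, sub_zero, zero_add] using d0
  · simp only [sum_const_zero, ← mul_sum, mul_zero, zero_add, ← mul_assoc, ← pow_two]
    exact mul_le_mul_of_nonneg_left (rows_le p₀ p₁ Subset.rfl) (sq_nonneg _)

/-- A function that changes sign across a cut. -/
theorem cut_le {I J : Finset ℤ} (hI : I ⊆ Icc s t) (hJ : J ⊆ Icc s t) (hc : I.card = J.card)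
    (h0 : 0 < J.card) {v : ℤ → ℤ → ℝ} (hv : ∀ a ∈ I, ∀ b, v a b = u a b)
    (hv' : ∀ a ∈ J, ∀ b, v a b = -u a b)
    (h₀ : ∀ b ∈ I, ∀ a, s ≤ a → a < t → (u (a + 1) b - u a b) ^ 2 ≤ g₀ a b)
    (h₀' : ∀ b ∈ J, ∀ a, s ≤ a → a < t → (v (a + 1) b - v a b) ^ 2 ≤ g₀ a b)
    (h₁ : ∀ a b, (u a (b + 1) - u a b) ^ 2 ≤ g₁ a b) :
    ∑ a ∈ I, ∑ b ∈ J, u a b ^ 2 ≤
      4 * ((Icc s t).card : ℝ) ^ 2 * ∑ a ∈ Icc s t, ∑ b ∈ Icc s t, (g₀ a b + g₁ a b) := by
  have c2 : (J.card : ℝ) ≤ (Icc s t).card := by exact_mod_cast card_le_card hJ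
  have c0 : (0 : ℝ) < J.card := by exact_mod_cast h0
  have r1 := rows_le p₀ p₁ hI
  have r2 := rows_le p₀ p₁ hJ
  have r3 := cols_le p₀ p₁ hI
  have r4 := cols_le p₀ p₁ hJ
  have hG : 0 ≤ ∑ a ∈ Icc s t, ∑ b ∈ Icc s t, (g₀ a b + g₁ a b) :=
    sum_nonneg fun a _ => sum_nonneg fun b _ => add_nonneg (p₀ a b) (p₁ a b)
  have key : ∀ a' ∈ J, ∀ b' ∈ I, ∑ a ∈ I, ∑ b ∈ J, u a b ^ 2 ≤
      2 * J.card * (Icc s t).card * (∑ a ∈ Icc s t, ∑ b ∈ Icc s t, (g₀ a b + g₁ a b)) +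
        J.card ^ 2 * (Icc s t).card * ∑ k ∈ Icc s t, g₁ a' k +
        J.card ^ 2 * (Icc s t).card * ∑ k ∈ Icc s t, g₀ k b' := by
    intro a' ha' b' hb'
    refine (sum2_le (c := (Icc s t).card * ∑ k ∈ Icc s t, g₁ a' k +
      (Icc s t).card * ∑ k ∈ Icc s t, g₀ k b') (p := fun a => (Icc s t).card *
      ∑ k ∈ Icc s t, g₁ a k) (q := fun b => (Icc s t).card * ∑ k ∈ Icc s t, g₀ k b)
      fun a ha b hb => ?_).trans ?_
    · have d0 := diff_sq (f := fun a => u a b') (fun k => p₀ k b') (h₀ b' hb') (hI ha) (hJ ha')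
      have d1 := diff_sq (f := fun a => v a b) (fun k => p₀ k b) (h₀' b hb) (hI ha) (hJ ha')
      have d2 := diff_sq (f := u a) (p₁ a) (fun k _ _ => h₁ a k) (hJ hb) (hI hb')
      have d3 := diff_sq (f := u a') (p₁ a') (fun k _ _ => h₁ a' k) (hI hb') (hJ hb)
      simp only [hv a ha, hv' a' ha'] at d0 d1
      have e : 2 * u a b = (u a b' - u a' b') + (u a b - -u a' b) + (u a b - u a b') +
          (u a' b' - u a' b) := by ring
      generalize u a b' - u a' b' = w at *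
      generalize u a b - -u a' b = x at *
      generalize u a b - u a b' = y at *
      generalize u a' b' - u a' b = z at *
      have : u a b = (w + x + y + z) / 2 := by linarith
      rw [this]
      nlinarith [sq_nonneg (w - x), sq_nonneg (w - y), sq_nonneg (w - z), sq_nonneg (x - y),
        sq_nonneg (x - z), sq_nonneg (y - z)]
    · rw [hc, ← mul_sum, ← mul_sum]
      nlinarith [mul_le_mul_of_nonneg_left (add_le_add r2 r3)
        (by positivity : (0 : ℝ) ≤ J.card * (Icc s t).card)]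
  have h := sum2_le key
  simp only [sum_const, nsmul_eq_mul, ← mul_sum, hc] at h
  generalize ∑ a ∈ Icc s t, ∑ b ∈ Icc s t, (g₀ a b + g₁ a b) = G at *
  generalize ((Icc s t).card : ℝ) = N at *
  generalize (J.card : ℝ) = n at *
  have hN : 0 ≤ N := c0.le.trans c2
  refine le_of_mul_le_mul_left ?_ (by positivity : 0 < n * n)
  have k1 : n * n * (4 * n * N * G) ≤ n * n * (4 * N * N * G) := by gcongr
  nlinarith [mul_le_mul_of_nonneg_left (add_le_add r1 r4) (by positivity : 0 ≤ n ^ 3 * N)]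

end

/-- The supremum is bounded by two mixed differences. -/
theorem sup_le (u : ℤ → ℤ → ℝ) {s t a b : ℤ} (ha : a ∈ Icc s t) (hb : b ∈ Icc s t) :
    ((Icc s t).card : ℝ) ^ 2 * u a b ^ 2 ≤ 4 * ∑ k ∈ Icc s t, ∑ l ∈ Icc s t, (u k l ^ 2 +
      ((Icc s t).card : ℝ) ^ 2 * (u (k + 1) l - u k l) ^ 2 +
      ((Icc s t).card : ℝ) ^ 2 * (u k (l + 1) - u k l) ^ 2 + ((Icc s t).card : ℝ) ^ 4 *
        (u (k + 1) (l + 1) - u (k + 1) l - u k (l + 1) + u k l) ^ 2) := by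
  have h1 := mul_le_mul_of_nonneg_left (pt_le (fun k => u k b) ha)
    (Nat.cast_nonneg (Icc s t).card : (0 : ℝ) ≤ _)
  have h2 := sum_le_sum fun k (_ : k ∈ Icc s t) => pt_le (u k) hb
  have h3 := mul_le_mul_of_nonneg_left (sum_le_sum fun k (_ : k ∈ Icc s t) =>
    pt_le (fun l => u (k + 1) l - u k l) hb) (sq_nonneg ((Icc s t).card : ℝ))
  have e : ∀ k l, u (k + 1) (l + 1) - u k (l + 1) - (u (k + 1) l - u k l) =
      u (k + 1) (l + 1) - u (k + 1) l - u k (l + 1) + u k l := fun k l => by ring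
  simp only [sum_add_distrib, ← mul_sum, e] at h1 h2 h3 ⊢
  linarith

end Vale.Agent.P144Z.E2
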