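import Vale.Agent.P144Z.E2.Plane
import Vale.Agent.P144Z.G.Main

/-! Transfer of the inequalities to the squares of the torus. -/

namespace Vale.Agent.P144Z.E2

open Finset Matrix

variable {M : ℕ} [NeZero M]

/-- The point with coordinates `a, b` around `z`. -/
def pt (z : Tor M) (a b : ℤ) : Tor M := z + prj M (a, b)

omit [NeZero M] in
theorem pt_zero (z : Tor M) (a b : ℤ) : pt z (a + 1) b = pt z a b + uv M 0 := by
  rw [pt, pt, G.uv_zero, add_assoc, ← G.prj_add]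
  simp

omit [NeZero M] in
theorem pt_one (z : Tor M) (a b : ℤ) : pt z a (b + 1) = pt z a b + uv M 1 := by
  rw [pt, pt, G.uv_one, add_assoc, ← G.prj_add]
  simp

theorem tdist_pt (z : Tor M) {a b : ℤ} (ha : 2 * |a| < M) (hb : 2 * |b| < M) :
    tdist (pt z a b) z = max a.natAbs b.natAbs := by
  rw [G.tdist_def, pt, G.lft_add_sub z (v := (a, b)) ha hb]

theorem sum_sq (z : Tor M) (v : ℤ × ℤ) {r : ℕ} (h : 2 * r + 1 ≤ M) (F : Tor M → ℝ) :
    ∑ x ∈ ball (pt z v.1 v.2) r, F x =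
      ∑ a ∈ Icc (v.1 - r) (v.1 + r), ∑ b ∈ Icc (v.2 - r) (v.2 + r), F (pt z a b) := by
  rw [← sum_product (f := fun w : ℤ × ℤ => F (pt z w.1 w.2))]
  refine sum_bij' (fun x _ => v + lft (x - pt z v.1 v.2)) (fun w _ => pt z w.1 w.2)
    (fun x hx => ?_) (fun w hw => ?_) (fun x _ => ?_) (fun w hw => ?_) fun x _ => ?_
  · have := G.lft_bound (G.mem_ball.1 hx)
    simp only [mem_product, mem_Icc, Prod.fst_add, Prod.snd_add, abs_le] at this ⊢
    omega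
  · have := G.tdist_add_prj_le' z w v
    simp only [mem_product, mem_Icc] at hw
    exact G.mem_ball.2 (this.trans (by omega))
  · rw [pt, Prod.mk.eta, G.prj_add, prj_lft, pt, ← add_assoc, add_sub_cancel]
  · simp only [mem_product, mem_Icc] at hw
    rw [pt, pt, add_sub_add_left_eq_sub, ← G.prj_sub, lft_prj, add_sub_cancel]
    · simp only [Prod.fst_sub]
      cases abs_cases (w.1 - v.1) <;> omega
    · simp only [Prod.snd_sub]
      cases abs_cases (w.2 - v.2) <;> omega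
  · rw [pt, Prod.mk.eta, G.prj_add, prj_lft, pt, ← add_assoc, add_sub_cancel]

theorem sum_ball (z : Tor M) {r : ℕ} (h : 2 * r + 1 ≤ M) (F : Tor M → ℝ) :
    ∑ x ∈ ball z r, F x = ∑ a ∈ Icc (-(r : ℤ)) r, ∑ b ∈ Icc (-(r : ℤ)) r, F (pt z a b) := by
  have := sum_sq z 0 h F
  rw [pt, Prod.mk.eta, G.prj_zero, add_zero] at this
  simpa using this

theorem card_I (a : ℤ) (r : ℕ) : ((Icc (a - r) (a + r)).card : ℝ) = 2 * r + 1 := by
  rw [Int.card_Icc, (by omega : (a + r + 1 - (a - r)).toNat = 2 * r + 1)]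
  push_cast
  rfl

theorem card_I0 (r : ℕ) : ((Icc (-(r : ℤ)) r).card : ℝ) = 2 * r + 1 := by
  simpa using card_I 0 r

/-- The squared covariant difference along an edge. -/
def gr (A : Gauge M) (φ : Tor M × Fin 4 → ℝ) (c : Fin 4) (i : Fin 2) (x : Tor M) : ℝ :=
  (A (x, i) * φ (x + uv M i, c) - φ (x, c)) ^ 2

omit [NeZero M] in
theorem gradsq_eq (A : Gauge M) (B : Finset (Tor M)) (φ : Tor M × Fin 4 → ℝ) :
    gradsq A B φ = ∑ c, ∑ x ∈ B, (gr A φ c 0 x + gr A φ c 1 x) := by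
  rw [sum_comm]
  simp only [gradsq, Fin.sum_univ_two, gr, sum_add_distrib]

omit [NeZero M] in
theorem l2sq_eq (B : Finset (Tor M)) (φ : Tor M × Fin 4 → ℝ) :
    l2sq B φ = ∑ c, ∑ x ∈ B, |φ (x, c)| ^ 2 := by
  rw [sum_comm]
  simp only [l2sq, sq_abs]

omit [NeZero M] in
theorem gr_nonneg (A : Gauge M) (φ : Tor M × Fin 4 → ℝ) (c : Fin 4) (i : Fin 2) (x : Tor M) :
    0 ≤ gr A φ c i x := sq_nonneg _

omit [NeZero M] in
/-- The diamagnetic inequality. -/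
theorem dia {A : Gauge M} (hA : IsSign A) (φ : Tor M × Fin 4 → ℝ) (c : Fin 4) (i : Fin 2)
    (x : Tor M) : (|φ (x + uv M i, c)| - |φ (x, c)|) ^ 2 ≤ gr A φ c i x := by
  have h := abs_abs_sub_abs_le_abs_sub (A (x, i) * φ (x + uv M i, c)) (φ (x, c))
  have e : |A (x, i) * φ (x + uv M i, c)| = |φ (x + uv M i, c)| := by
    rcases hA (x, i) with h | h <;> simp [h]
  rw [e] at h
  exact sq_le_sq.2 h

omit [NeZero M] in
theorem gradsq_mono (A : Gauge M) {B B' : Finset (Tor M)} (h : B ⊆ B') (φ : Tor M × Fin 4 → ℝ) :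
    gradsq A B φ ≤ gradsq A B' φ :=
  sum_le_sum_of_subset_of_nonneg h fun _ _ _ =>
    sum_nonneg fun _ _ => sum_nonneg fun _ _ => sq_nonneg _

omit [NeZero M] in
theorem gradsq_nonneg (A : Gauge M) (B : Finset (Tor M)) (φ : Tor M × Fin 4 → ℝ) :
    0 ≤ gradsq A B φ :=
  sum_nonneg fun _ _ => sum_nonneg fun _ _ => sum_nonneg fun _ _ => sq_nonneg _

omit [NeZero M] in
theorem l2sq_nonneg (B : Finset (Tor M)) (φ : Tor M × Fin 4 → ℝ) : 0 ≤ l2sq B φ :=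
  sum_nonneg fun _ _ => sum_nonneg fun _ _ => sq_nonneg _

/-- The squared norm over a rectangle. -/
def rsq (z : Tor M) (I J : Finset ℤ) (φ : Tor M × Fin 4 → ℝ) : ℝ :=
  ∑ c, ∑ a ∈ I, ∑ b ∈ J, |φ (pt z a b, c)| ^ 2

theorem rsq_ball (z : Tor M) {r : ℕ} (h : 2 * r + 1 ≤ M) (φ : Tor M × Fin 4 → ℝ) :
    l2sq (ball z r) φ = rsq z (Icc (-(r : ℤ)) r) (Icc (-(r : ℤ)) r) φ := by
  simp only [l2sq_eq, sum_ball z h, rsq]

theorem rsq_cmp {A : Gauge M} (hA : IsSign A) (z : Tor M) {r : ℕ} (h : 2 * r + 1 ≤ M)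
    (φ : Tor M × Fin 4 → ℝ) {I J I' J' : Finset ℤ} (hI : I ⊆ Icc (-(r : ℤ)) r)
    (hJ : J ⊆ Icc (-(r : ℤ)) r) (hI' : I' ⊆ Icc (-(r : ℤ)) r) (hJ' : J' ⊆ Icc (-(r : ℤ)) r)
    {k : ℝ} (hk : 0 < k) : I'.card * J'.card * rsq z I J φ ≤
      (1 + k⁻¹) * (I.card * J.card) * rsq z I' J' φ +
        4 * (1 + k) * (2 * r + 1) ^ 4 * gradsq A (ball z r) φ := by
  simp only [rsq, gradsq_eq, sum_ball z h, ← card_I0]
  rw [mul_sum, mul_sum, mul_sum, ← sum_add_distrib]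
  exact sum_le_sum fun c _ => cmp (u := fun a b => |φ (pt z a b, c)|)
    (fun a b => gr_nonneg A φ c 0 _) (fun a b => gr_nonneg A φ c 1 _)
    (fun a b => by rw [pt_zero]; exact dia hA φ c 0 _)
    (fun a b => by rw [pt_one]; exact dia hA φ c 1 _) hI hJ hI' hJ' hk

theorem ext_le {A : Gauge M} (hA : IsSign A) (z z' : Tor M) {r r' : ℕ} (h1 : 1 ≤ r')
    (hz : tdist z' z + r' ≤ r) (h : 2 * r + 1 ≤ M) (φ : Tor M × Fin 4 → ℝ) : l2sq (ball z r) φ ≤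
      648 * ((r : ℝ) / r') ^ 2 * (l2sq (ball z' r') φ + r ^ 2 * gradsq A (ball z r) φ) := by
  obtain ⟨b1, b2⟩ := G.lft_bound (le_refl (tdist z' z))
  have e : l2sq (ball z' r') φ = rsq z (Icc ((lft (z' - z)).1 - r') ((lft (z' - z)).1 + r'))
      (Icc ((lft (z' - z)).2 - r') ((lft (z' - z)).2 + r')) φ := by
    have e0 : pt z (lft (z' - z)).1 (lft (z' - z)).2 = z' := G.add_prj_lft z' z
    have := sum_sq z (lft (z' - z)) (by omega : 2 * r' + 1 ≤ M)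
    rw [e0] at this
    simp only [l2sq_eq, this, rsq]
  rw [abs_le] at b1 b2
  have k := rsq_cmp hA z h φ Subset.rfl Subset.rfl
    (Icc_subset_Icc (by omega : -(r : ℤ) ≤ (lft (z' - z)).1 - r')
      (by omega : (lft (z' - z)).1 + r' ≤ r))
    (Icc_subset_Icc (by omega : -(r : ℤ) ≤ (lft (z' - z)).2 - r')
      (by omega : (lft (z' - z)).2 + r' ≤ r)) one_pos
  rw [← e, ← rsq_ball z h, card_I, card_I, card_I0] at k
  have hr' : (1 : ℝ) ≤ r' := by exact_mod_cast h1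
  have hr : (1 : ℝ) ≤ r := by exact_mod_cast (by omega : 1 ≤ r)
  have a1 := l2sq_nonneg (ball z r) φ
  have a2 := l2sq_nonneg (ball z' r') φ
  have a3 := gradsq_nonneg A (ball z r) φ
  generalize l2sq (ball z r) φ = S at *
  generalize l2sq (ball z' r') φ = S' at *
  generalize gradsq A (ball z r) φ = G at *
  rw [div_pow, ← mul_div_assoc, div_mul_eq_mul_div, le_div_iff₀ (by positivity)]
  calc S * r' ^ 2 = r' * r' * S := by ring
    _ ≤ (2 * r' + 1) * (2 * r' + 1) * S := by gcongr <;> linarith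
    _ ≤ _ := k
    _ ≤ 72 * ((3 * r) * (3 * r)) * S' + 4 * (1 + 1) * (3 * r) ^ 4 * G := by
      gcongr <;> linarith
    _ = _ := by ring

theorem supp_sq {A : Gauge M} (hA : IsSign A) (z : Tor M) {ρ : ℕ} (h : 2 * ρ + 3 ≤ M)
    {φ : Tor M × Fin 4 → ℝ} (hφ : SuppIn φ z ρ) :
    l2sq univ φ ≤ 9 * ((ρ : ℝ) + 1) ^ 2 * gradsq A univ φ := by
  have h' : 2 * (ρ + 1) + 1 ≤ M := h
  have e : l2sq univ φ = l2sq (ball z (ρ + 1)) φ :=
    (sum_subset (subset_univ _) fun x _ hx => sum_eq_zero fun a _ => by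
      rw [hφ (x, a) (by rw [G.mem_ball] at hx; dsimp only; omega), zero_pow two_ne_zero]).symm
  have k : l2sq (ball z (ρ + 1)) φ ≤ (2 * ((ρ + 1 : ℕ) : ℝ) + 1) ^ 2 *
      gradsq A (ball z (ρ + 1)) φ := by
    simp only [l2sq_eq, gradsq_eq, sum_ball z h', ← card_I0]
    rw [mul_sum]
    refine sum_le_sum fun c _ => supp_le (u := fun a b => |φ (pt z a b, c)|)
      (fun a b => gr_nonneg A φ c 0 _) (fun a b => gr_nonneg A φ c 1 _)
      (fun a b => by rw [pt_zero]; exact dia hA φ c 0 _) (by omega) fun b hb => ?_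
    rw [mem_Icc] at hb
    rw [hφ _ (by
      rw [tdist_pt z (by cases abs_cases ((ρ + 1 : ℕ) : ℤ) <;> omega)
        (by cases abs_cases b <;> omega)]
      omega), abs_zero]
  refine e.trans_le (k.trans (mul_le_mul ?_ (gradsq_mono A (subset_univ _) φ)
    (gradsq_nonneg _ _ _) (by positivity)))
  push_cast
  nlinarith [(Nat.cast_nonneg ρ : (0 : ℝ) ≤ ρ)]

theorem sup_sq (z x : Tor M) {ρ : ℕ} (h1 : 1 ≤ ρ) (h : 2 * ρ + 1 ≤ M) (hx : tdist x z ≤ ρ)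
    (w : Tor M → ℝ) : w x ^ 2 ≤ 36 * ∑ y ∈ ball z ρ,
      (w y ^ 2 / ρ ^ 2 + (w (y + uv M 0) - w y) ^ 2 + (w (y + uv M 1) - w y) ^ 2 +
        ρ ^ 2 * (w (y + uv M 0 + uv M 1) - w (y + uv M 0) - w (y + uv M 1) + w y) ^ 2) := by
  obtain ⟨b1, b2⟩ := G.lft_bound hx
  have k := sup_le (fun a b => w (pt z a b)) (mem_Icc.2 (abs_le.1 b1)) (mem_Icc.2 (abs_le.1 b2))
  have e0 : pt z (lft (x - z)).1 (lft (x - z)).2 = x := G.add_prj_lft x z
  simp only [e0, pt_one, pt_zero, card_I0] at k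
  have hρ : (1 : ℝ) ≤ ρ := by exact_mod_cast h1
  refine le_of_mul_le_mul_left (k.trans ?_) (by positivity)
  rw [sum_ball z h]
  simp only [mul_sum]
  refine sum_le_sum fun a _ => sum_le_sum fun b _ => ?_
  generalize pt z a b = y
  have k1 : (2 * (ρ : ℝ) + 1) ^ 2 ≤ 9 * ρ ^ 2 := by nlinarith
  have k2 : w y ^ 2 ≤ (2 * (ρ : ℝ) + 1) ^ 2 * (w y ^ 2 / ρ ^ 2) := by
    rw [← mul_div_assoc, le_div_iff₀ (by positivity), mul_comm]
    gcongr
    linarith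
  have k3 := mul_le_mul_of_nonneg_right (mul_le_mul_of_nonneg_left k1 (sq_nonneg (2 * (ρ : ℝ) + 1)))
    (sq_nonneg (w (y + uv M 0 + uv M 1) - w (y + uv M 0) - w (y + uv M 1) + w y))
  have k4 := mul_nonneg (sq_nonneg (2 * (ρ : ℝ) + 1)) (sq_nonneg (w (y + uv M 0) - w y))
  have k5 := mul_nonneg (sq_nonneg (2 * (ρ : ℝ) + 1)) (sq_nonneg (w (y + uv M 1) - w y))
  have k6 := mul_nonneg (sq_nonneg ((2 * (ρ : ℝ) + 1) * ρ))
    (sq_nonneg (w (y + uv M 0 + uv M 1) - w (y + uv M 0) - w (y + uv M 1) + w y))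
  linarith [sq_nonneg (w y)]

theorem log_step {A : Gauge M} (hA : IsSign A) (z : Tor M) {r R : ℕ} (h1 : r ≤ R)
    (h2 : R ≤ 2 * r + 1) (h : 2 * R + 1 ≤ M) (φ : Tor M × Fin 4 → ℝ) {k : ℝ} (hk : 0 < k) :
    l2sq (ball z r) φ / (2 * r + 1) ^ 2 ≤ (1 + k⁻¹) * (l2sq (ball z R) φ / (2 * R + 1) ^ 2) +
      36 * (1 + k) * gradsq A (ball z R) φ := by
  have hs : Icc (-(r : ℤ)) r ⊆ Icc (-(R : ℤ)) R := Icc_subset_Icc (by omega) (by omega)
  have c := rsq_cmp hA z h φ hs hs Subset.rfl Subset.rfl hk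
  rw [← rsq_ball z h, ← rsq_ball z (by omega : 2 * r + 1 ≤ M), card_I0, card_I0] at c
  have a3 := gradsq_nonneg A (ball z R) φ
  have k1 : (2 * (R : ℝ) + 1) ≤ 3 * (2 * r + 1) := by
    exact_mod_cast (by omega : 2 * R + 1 ≤ 3 * (2 * r + 1))
  have n0 : (0 : ℝ) < 2 * r + 1 := by positivity
  have n1 : (0 : ℝ) < 2 * R + 1 := by positivity
  generalize gradsq A (ball z R) φ = G at *
  generalize (2 * (R : ℝ) + 1) = N at *
  generalize (2 * (r : ℝ) + 1) = n at *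
  rw [div_le_iff₀ (by positivity)]
  refine le_of_mul_le_mul_left (c.trans ?_) (by positivity)
  calc _ = (1 + k⁻¹) * (n * n) * l2sq (ball z R) φ + 4 * (1 + k) * N ^ 2 * N ^ 2 * G := by ring
    _ ≤ (1 + k⁻¹) * (n * n) * l2sq (ball z R) φ + 4 * (1 + k) * N ^ 2 * (3 * n) ^ 2 * G := by gcongr
    _ = _ := by field_simp; ring

theorem log_iter {A : Gauge M} (hA : IsSign A) (z : Tor M) {ρ : ℕ} (h : 2 * ρ + 1 ≤ M)
    (φ : Tor M × Fin 4 → ℝ) {k : ℝ} (hk : 0 < k) (j : ℕ) : ∀ r ≤ ρ, ρ + 1 ≤ 2 ^ j * (r + 1) →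
    l2sq (ball z r) φ / (2 * r + 1) ^ 2 ≤ (1 + k⁻¹) ^ j * (l2sq (ball z ρ) φ / (2 * ρ + 1) ^ 2 +
      j * (36 * (1 + k) * gradsq A (ball z ρ) φ)) := by
  induction j with
  | zero =>
    intro r h1 h2
    obtain rfl : r = ρ := by omega
    simp
  | succ j ih =>
    intro r h1 h2
    have k1 := log_step hA z (by omega : r ≤ min (2 * r + 1) ρ) (min_le_left _ _) (by omega) φ hk
    have k2 := ih (min (2 * r + 1) ρ) (min_le_right _ _) (by
      rcases le_total (2 * r + 1) ρ with h3 | h3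
      · rw [min_eq_left h3]
        calc ρ + 1 ≤ 2 ^ (j + 1) * (r + 1) := h2
          _ = _ := by ring
      · rw [min_eq_right h3]
        exact Nat.le_mul_of_pos_left _ (by positivity))
    have k3 := mul_le_mul_of_nonneg_left (gradsq_mono A (B := ball z (min (2 * r + 1) ρ))
      (B' := ball z ρ) (fun x hx => G.mem_ball.2 ((G.mem_ball.1 hx).trans (min_le_right _ _))) φ)
      (by positivity : 0 ≤ 36 * (1 + k))
    have k4 : 0 ≤ 36 * (1 + k) * gradsq A (ball z ρ) φ :=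
      mul_nonneg (by positivity) (gradsq_nonneg _ _ _)
    have k5 : 1 ≤ (1 + k⁻¹) ^ (j + 1) := one_le_pow₀ (le_add_of_nonneg_right (by positivity))
    have k6 := mul_le_mul_of_nonneg_left k2 (by positivity : 0 ≤ 1 + k⁻¹)
    have k7 := mul_le_mul_of_nonneg_right k5 k4
    rw [Nat.cast_succ, pow_succ _ j] at *
    linarith

theorem log_le {A : Gauge M} (hA : IsSign A) (z : Tor M) {r ρ : ℕ} (h1 : r ≤ ρ)
    (h : 2 * ρ + 1 ≤ M) (φ : Tor M × Fin 4 → ℝ) :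
    l2sq (ball z r) φ ≤ 4000 * ((r : ℝ) + 1) ^ 2 * (l2sq (ball z ρ) φ / ((ρ : ℝ) + 1) ^ 2 +
      (1 + Real.log (((ρ : ℝ) + 1) / (r + 1))) ^ 2 * gradsq A (ball z ρ) φ) := by
  obtain ⟨j, j1, j2⟩ : ∃ j : ℕ, ρ + 1 ≤ 2 ^ (j + 1) * (r + 1) ∧ 2 ^ j * (r + 1) ≤ ρ + 1 := by
    have h0 : (ρ + 1) / (r + 1) ≠ 0 := (Nat.div_pos (by omega) (by omega)).ne'
    refine ⟨Nat.log 2 ((ρ + 1) / (r + 1)), ?_, ?_⟩
    · exact ((Nat.div_lt_iff_lt_mul (by omega)).1 (Nat.lt_pow_succ_log_self one_lt_two _)).le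
    · exact (Nat.le_div_iff_mul_le (by omega)).1 (Nat.pow_log_le_self 2 h0)
  have k := log_iter hA z h φ (k := (j + 1 : ℕ)) (by positivity) (j + 1) r h1 j1
  have k1 : (1 + (((j + 1 : ℕ) : ℝ))⁻¹) ^ (j + 1) ≤ 3 :=
    Real.one_add_inv_pow_le_exp.trans (Real.exp_one_lt_d9.le.trans (by norm_num))
  have k2 : (j : ℝ) ≤ 2 * Real.log (((ρ : ℝ) + 1) / (r + 1)) := by
    have : (2 : ℝ) ^ j ≤ ((ρ : ℝ) + 1) / (r + 1) := by
      rw [le_div_iff₀ (by positivity)]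
      exact_mod_cast j2
    have h3 := Real.log_le_log (by positivity) this
    rw [Real.log_pow] at h3
    nlinarith [Real.log_two_gt_d9, (Nat.cast_nonneg j : (0 : ℝ) ≤ j)]
  have a1 := l2sq_nonneg (ball z ρ) φ
  have a3 := gradsq_nonneg A (ball z ρ) φ
  have hj : (0 : ℝ) ≤ j := Nat.cast_nonneg j
  have hr : (0 : ℝ) ≤ r := Nat.cast_nonneg r
  rw [div_le_iff₀ (by positivity)] at k
  generalize (1 + (((j + 1 : ℕ) : ℝ))⁻¹) ^ (j + 1) = e at *
  generalize Real.log (((ρ : ℝ) + 1) / (r + 1)) = L at *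
  generalize gradsq A (ball z ρ) φ = G at *
  generalize l2sq (ball z ρ) φ = S at *
  push_cast at k
  have hL : 0 ≤ L := by linarith
  have k3 : S / (2 * (ρ : ℝ) + 1) ^ 2 ≤ 288 * (S / ((ρ : ℝ) + 1) ^ 2) := by
    refine le_trans ?_ (le_mul_of_one_le_left (by positivity) (by norm_num))
    gcongr
    linarith [(Nat.cast_nonneg ρ : (0 : ℝ) ≤ ρ)]
  calc _ ≤ _ := k
    _ ≤ 3 * (288 * (S / ((ρ : ℝ) + 1) ^ 2) + (2 * (1 + L)) * (36 * (4 * (1 + L)) * G)) *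
        (2 * (r + 1)) ^ 2 := by gcongr <;> linarith
    _ = 3456 * ((r : ℝ) + 1) ^ 2 * (S / ((ρ : ℝ) + 1) ^ 2 + (1 + L) ^ 2 * G) := by ring
    _ ≤ _ := by gcongr; norm_num

end Vale.Agent.P144Z.E2
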